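import Vale.Agent.P030.Bdl.B2

namespace Vale.Agent.Results.P030.BetaTwoFour

/-- At least one of Catalan's constant `G = β(2)` and `β(4)` is irrational. -/
theorem result :
    Irrational (∑' j : ℕ, (-1 : ℝ) ^ j / (2 * (j : ℝ) + 1) ^ 2) ∨
      Irrational (∑' j : ℕ, (-1 : ℝ) ^ j / (2 * (j : ℝ) + 1) ^ 4) :=
  Vale.Agent.P030.Five.main5

end Vale.Agent.Results.P030.BetaTwoFour
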